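import Vale.Agent.P011.H677.NSF.Ns
import Vale.Agent.P011.H996.Odd.ExtF

/-!
**Reduced norms near one over function fields**: the property `NSurP` of the frame of Wang's
theorem near one, for every prime different from the characteristic.
-/

open Module

set_option linter.style.haveILetI false

namespace Vale.Agent.P011.H677.NSF

open Vale.Agent.P011.H738 Vale.Agent.P011.H271
open Vale.Agent.P011.H775.Top
open Vale.Agent.P011.H677.GW

/-- **Reduced norms near one over function fields.** -/
theorem nSurP_ff {k : Type} [Field k] [GFF k] (T : Finset (Place k)) [Nonempty T] {p : ℕ}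
    (hp : p.Prime) (hpk : (p : k) ≠ 0) :
    letI := topk (avF T)
    NSurP k p := by
  refine nSurP_of T (fun Z _ _ _ _ T' _ h => H996.Odd.topk_aboveF T T' h)
    (fun Z C _ _ _ _ _ _ e hC hpZ => ?_) hpk
  obtain ⟨S0, hS0⟩ := H380.Good7.exists_spl_setF (F := Z) (B := C) hC
  exact ⟨S0, fun S' hS' _ β => nsAt_ff hp hpZ hC S' (fun v hv => hS0 v fun h => hv (hS' h)) β⟩

end Vale.Agent.P011.H677.NSF
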