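import Vale.Agent.P011.H612.Germ.Ext
import Vale.Agent.P011.H454.GW.Shift
import Vale.Agent.P011.H775.Odd.TopFF
import Vale.Agent.P011.H505.WangG
import Vale.Agent.P011.H511.HasseApproxF
import Vale.Agent.P011.H677.GW.Sep

/-!
Reduced norms near one over function fields: from the statement over the centre at enough places
to the property `NSurP` of the frame of Wang's theorem near one.
-/

open Module Filter Topology

set_option linter.style.haveILetI false
set_option linter.unusedSectionVars false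

namespace Vale.Agent.P011.H677.NSF

open Vale.Agent.P011.H738 Vale.Agent.P011.H271 Vale.Agent.P011.H271.S3 Vale.Agent.P011.H973.PF
open Vale.Agent.P011.H511.FF
open Vale.Agent.P011.H775.Top
open Vale.Agent.P011.H677.GW
open Vale.Agent.P011.W (HasNrd Spl)
open Vale.Agent.P011.H612.Germ (nb_trans)
open Vale.Agent.P011.H454.GW (ns_shift)

/-- Weak approximation. -/
theorem wa_ff {Z : Type} [Field Z] (T' : Finset (Place Z)) (x : T' → Z) (ε : ℝ) (hε : 0 < ε) :
    ∃ z : Z, ∀ w : T', avF T' w (z - x w) < ε := by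
  obtain ⟨z, hz⟩ := H698.place_weak T' (fun v => algebraMap Z (v : Place Z).comp (x v)) hε
  refine ⟨z, fun w => ?_⟩
  have h := hz w
  rw [← map_sub, norm_alg] at h
  exact h

/-- Reduced norms near one over the centre, at the places of `S`. -/
def NsAt {Z C : Type} [Field Z] [DivisionRing C] [Algebra Z C] (d : ℕ) {N : ℕ}
    (β : Basis (Fin N) Z C) (S : Finset (Place Z)) : Prop :=
  ∀ ε : ℝ, 0 < ε → ∃ δ : ℝ, 0 < δ ∧ ∀ x : Z, x ≠ 0 → (∀ v ∈ S, v.abv (x - 1) < δ) →
    ∃ τ : C, HasNrd Z d τ x ∧ ∀ v ∈ S, ∀ l, v.abv (β.repr (τ - 1) l) < ε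

/-- **The shift**: fewer places. -/
theorem NsAt.anti {Z C : Type} [Field Z] [GFF Z] [DivisionRing C] [Algebra Z C]
    [FiniteDimensional Z C] [Algebra.IsCentral Z C] {d : ℕ} (hC : finrank Z C = d ^ 2) {N : ℕ}
    {β : Basis (Fin N) Z C} {S S' : Finset (Place Z)} (hSS : S ⊆ S') (h : NsAt d β S') :
    NsAt d β S := by
  intro ε hε
  haveI hi : Infinite Z := Hey.gff_infinite Z
  obtain ⟨δ, hδ, h1⟩ := ns_shift hC β (avF S') (avF_nonarch S') (fun w => w.1 ∈ S) (wa_ff S')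
    (fun w _ b hb ε hε => by
      obtain ⟨t, ht⟩ := H505.Wang.nsur_ff Z Z C d hC b hb
      exact ⟨t, b, ht, by rw [sub_self, map_zero]; exact hε⟩)
    (fun ε hε => by
      obtain ⟨δ, hδ, h1⟩ := h ε hε
      refine ⟨δ, hδ, fun x hx hxS => ?_⟩
      obtain ⟨τ, h2, h3⟩ := h1 x hx fun v hv => hxS ⟨v, hv⟩
      exact ⟨τ, h2, fun w j => h3 w.1 w.2 j⟩) hε
  refine ⟨δ, hδ, fun b hb hbS => ?_⟩
  obtain ⟨τ, h2, h3⟩ := h1 b hb fun w hw => hbS w.1 hw
  exact ⟨τ, h2, fun w hw j => h3 ⟨w, hSS hw⟩ hw j⟩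

/-- **The property `NSurP` of the frame**, from the statement over the centre. -/
theorem nSurP_of {k : Type} [Field k] [GFF k] (T : Finset (Place k)) [hTn : Nonempty T] {p : ℕ}
    (hExt : ∀ (Z : Type) [Field Z] [Algebra k Z] [FiniteDimensional k Z] [Algebra.IsSeparable k Z]
      (T' : Finset (Place Z)) [Nonempty T'], (∀ W, W ∈ T' ↔ ∃ v ∈ T, Ab W v) →
      topk (avF T') = (letI := topk (avF T); moduleTopology k Z))
    (hns : ∀ (Z C : Type) [Field Z] [GFF Z] [DivisionRing C] [Algebra Z C]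
      [FiniteDimensional Z C] [Algebra.IsCentral Z C] (e : ℕ), finrank Z C = (p ^ e) ^ 2 →
      (p : Z) ≠ 0 → ∃ S0 : Finset (Place Z), ∀ S' : Finset (Place Z), S0 ⊆ S' →
        ∀ {N : ℕ} (β : Basis (Fin N) Z C), NsAt (p ^ e) β S')
    (hpk : (p : k) ≠ 0) :
    letI := topk (avF T)
    NSurP k p := by
  classical
  letI tk := topk (avF T)
  haveI hk := topk_isTopologicalDivisionRing (avF T)
  intro Z _ _ _ _ C _ _ _ _ _ _ e hC V hV
  haveI hZ : GFF Z := Hey.H63.gff_of_finite (k := k)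
  have hpZ : (p : Z) ≠ 0 := by
    rw [← map_natCast (algebraMap k Z)]
    exact (_root_.map_ne_zero _).2 hpk
  -- the places above
  have hfin : {W : Place Z | ∃ v ∈ T, Ab W v}.Finite := by
    refine (above_finite (K := Z) T.finite_toSet).subset ?_
    rintro W ⟨v, hv, hW⟩
    exact ⟨v, hv, av_of_ab hW⟩
  obtain ⟨T', hT'⟩ : ∃ T' : Finset (Place Z), ∀ W, W ∈ T' ↔ ∃ v ∈ T, Ab W v :=
    ⟨hfin.toFinset, fun W => by rw [Set.Finite.mem_toFinset]; rfl⟩
  haveI hT'n : Nonempty T' := by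
    obtain ⟨v, hv⟩ := hTn
    obtain ⟨W, hW⟩ := exists_above_ab (K := Z) v
    exact ⟨⟨W, (hT' W).mpr ⟨v, hv, hW⟩⟩⟩
  have hE := hExt Z T' hT'
  let β := finBasis Z C
  have e1 : (letI := topk (avF T'); nb Z C) = nb k C := by
    rw [hE]
    exact nb_trans
  have e2 : (letI := topk (avF T'); nb Z Z) = nb k Z := by
    rw [hE]
    exact nb_trans
  rw [← e1] at hV
  rw [← e2]
  have e3 : (letI := topk (avF T'); nb Z C) = @nhds C (topD β (avF T')) 1 :=
    nhds_moduleTopology β (avF T') 1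
  rw [e3] at hV
  obtain ⟨ε, hε, hεV⟩ := (H775.Top.mem_nhds_iff β (avF T')).mp hV
  obtain ⟨S0, hS0⟩ := hns Z C e hC hpZ
  have h1 : NsAt (p ^ e) β T' :=
    NsAt.anti hC Finset.subset_union_right (hS0 (S0 ∪ T') Finset.subset_union_left β)
  obtain ⟨δ, hδ, h2⟩ := h1 ε hε
  have e4 : (letI := topk (avF T'); nb Z Z) = @nhds Z (topk (avF T')) 1 := by
    letI := topk (avF T')
    haveI := topk_isTopologicalDivisionRing (avF T')
    haveI := topk_t2 (avF T')
    exact nb_self Z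
  rw [e4]
  refine (topk_mem_nhds_iff (avF T')).mpr ⟨min δ 1, lt_min hδ one_pos, fun b hb => ?_⟩
  have hb0 : b ≠ 0 := by
    rintro rfl
    obtain ⟨w⟩ := hT'n
    have h3 := (hb w).trans_le (min_le_right _ _)
    rw [zero_sub, AbsoluteValue.map_neg, map_one] at h3
    exact lt_irrefl _ h3
  obtain ⟨τ, h3, h4⟩ := h2 b hb0 fun v hv => (hb ⟨v, hv⟩).trans_le (min_le_left _ _)
  exact ⟨τ, hεV τ fun w j => h4 w.1 w.2 j, h3⟩

end Vale.Agent.P011.H677.NSF
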