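import Vale.Agent.P011.H677.NSF.Rw
import Vale.Agent.P011.H271.Odd.TopFF

/-!
**The input `ModRW` of the function field skeleton**, for the primes different from the
characteristic.
-/

open Module Filter Topology

set_option linter.style.haveILetI false
set_option linter.unusedSectionVars false

namespace Vale.Agent.P011.H677.NSF

open Vale.Agent.P011.H738 Vale.Agent.P011.H271 Vale.Agent.P011.H271.Odd
open Vale.Agent.P011.H775.Top
open Vale.Agent.P011.H677.GW
open Vale.Agent.P011.W (HasNrd)

variable {k K D Ω : Type} [Field k] [Field K] [StarRing K] [DivisionRing D] [StarRing D]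
  [Algebra k K] [Algebra k D] [Algebra K D] [IsScalarTower k K D] [StarModule K D] {n N : ℕ}
  [Field Ω] [Algebra K Ω]

/-- A homomorphism near one of exponent prime to the characteristic is zero on the elements of
reduced norm one close to one. -/
theorem psi_zero_ff [GFF k] (hA : Anis k K D n) (hn : n ≠ 0)
    (f : D →ₐ[K] Matrix (Fin n) (Fin n) Ω)
    (B : Basis (Fin N) k D) (T : Finset (Place k)) [Nonempty T] {R : D →* K}
    (hR : ∀ x, (f x).det = algebraMap K Ω (R x)) {l e : ℕ} (hl : l.Prime) (hlk : (l : k) ≠ 0)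
    {E : Type} [AddCommGroup E] (hE : ∀ x : E, l ^ e • x = 0) {Ψ : D → E}
    (hΨ : letI := topD B (af T); LocAdd Ψ) :
    ∀ᶠ u in @nhds D (topD B (af T)) 1, R u = 1 → Ψ u = 0 := by
  have := hA.central
  have hfD : FiniteDimensional K D := Module.finite_of_finrank_pos (by
    rw [hA.finrank_eq]
    positivity)
  obtain ⟨hfK, hsK, -⟩ := H519.quad hA.fixed hA.star_ne
  haveI : GFF K := Hey.H63.gff_of_finite (k := k)
  haveI hi : Infinite K := Hey.gff_infinite K
  have e3 : (letI := topk (avF T); nb k D) = @nhds D (topD B (af T)) 1 :=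
    nhds_moduleTopology B (avF T) 1
  have hG : letI := topk (avF T); Good k Ψ := by
    letI := topk (avF T)
    change ∀ᶠ p in nb k D ×ˢ nb k D, Ψ (p.1 * p.2) = Ψ p.1 + Ψ p.2
    rw [show nb k D = @nhds D (topD B (af T)) 1 from e3]
    obtain ⟨V, hV, h⟩ := hΨ
    exact Filter.mem_of_superset (Filter.prod_mem_prod hV hV) fun p hp => h _ hp.1 _ hp.2
  have h1 := rwK_ff T hA.finrank_eq hl hlk hE hG
  rw [← e3]
  refine h1.mono fun u hu hR1 => hu ?_
  exact H505.Wang.hasNrd_of_det hA.finrank_eq f (by rw [hR, hR1])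

/-- **`ModRW` for the primes different from the characteristic.** -/
theorem modRW_ne [GFF k] (hA : Anis k K D n) (hn : n ≠ 0) (f : D →ₐ[K] Matrix (Fin n) (Fin n) Ω)
    (B : Basis (Fin N) k D) (T : Finset (Place k)) [Nonempty T] {R : D →* K}
    (hR : ∀ x, (f x).det = algebraMap K Ω (R x)) {l : ℕ} (hl : l.Prime) (hlk : (l : k) ≠ 0) :
    ModRW f B T R l := by
  letI := topD B (af T)
  intro Q H _ _ _ _ _ _ _ _ E _ e W1 W ch Ψ hE _ hΨ _ O hO
  have h1 := psi_zero_ff hA hn f B T hR hl hlk hE hΨ
  filter_upwards [h1, hO] with u hu huO _ hRu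
  refine ⟨1, one_mem _, ?_, 1, Nat.coprime_one_left l, ?_⟩
  · rw [Units.val_one, mul_one]
    exact huO
  · rw [Units.val_one, mul_one, one_smul]
    exact hu hRu

end Vale.Agent.P011.H677.NSF
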