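import Vale.Agent.P011.H673.NS.InstNF
import Vale.Agent.P011.H74.Odd.TN
import Vale.Agent.P011.H167.NiI
import Vale.Agent.P011.H380.Good7.SplitMaxF
import Vale.Agent.P011.H677.NSF.Glue

/-!
Reduced norms near one over function fields, over the centre, in degree a power of a prime
different from the characteristic.
-/

open Module Polynomial

set_option linter.style.haveILetI false
set_option linter.unusedSectionVars false

namespace Vale.Agent.P011.H677.NSF

open Vale.Agent.P011.H738 Vale.Agent.P011.H271 Vale.Agent.P011.H271.S3 Vale.Agent.P011.H973.PF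
open Vale.Agent.P011.H511.FF
open Vale.Agent.P011.H775.Top (avF exists_small_ff)
open Vale.Agent.P011.W (HasNrd Spl deg_pos)
open Vale.Agent.P011.H74.Odd (OT SpF tn_ff)
open Vale.Agent.P011.H673.NS
open Vale.Agent.P011.H699.Odd (Near TN)

theorem avF_ult {Z : Type} [Field Z] (T : Finset (Place Z)) (v : T) (x y : Z) :
    avF T v (x + y) ≤ max (avF T v x) (avF T v y) := v.1.nonarch x y

theorem OTa_avF {Z : Type} [Field Z] (T : Finset (Place Z)) :
    OTa (avF T) (avF_ult T) = OT (T : Set (Place Z)) := by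
  ext x
  exact ⟨fun h v hv => h ⟨v, hv⟩, fun h v => h v.1 v.2⟩

theorem exists_small {Z : Type} [Field Z] (T : Finset (Place Z)) {δ : ℝ} (hδ : 0 < δ) :
    ∃ d : Z, d ≠ 0 ∧ ∀ v : T, avF T v d ≤ δ := by
  classical
  obtain ⟨q, hq0, hq⟩ := exists_small_ff T
  choose m hm using fun v : T => exists_pow_lt_of_lt_one hδ (hq v)
  refine ⟨q ^ (Finset.univ.sup m), pow_ne_zero _ hq0, fun v => ?_⟩
  rw [map_pow]
  exact ((pow_le_pow_of_le_one ((avF T v).nonneg _) (hq v).le
    (Finset.le_sup (Finset.mem_univ v))).trans_lt (hm v)).le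

/-- The two-field norm lemma for the intermediate fields. -/
theorem tn_interF {K : Type} [Field K] [GFF K] {TT : Set (Place K)} (hTT : TT.Finite) {J : Type}
    (pl : J → Set (Place K))
    (hJ : ∀ B : Finset (Place K), (∀ V ∈ B, V ∉ TT) → ∃ j, ↑B ⊆ pl j)
    {Ω : Type} [Field Ω] [Algebra K Ω] {p : ℕ} (hp : p.Prime) (hpK : (p : K) ≠ 0)
    (R R' : IntermediateField K Ω) (h : R ≤ R') [FiniteDimensional K R] [FiniteDimensional K R']
    (hG : IsGalois R (IntermediateField.extendScalars h))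
    (hd : finrank R (IntermediateField.extendScalars h) = p)
    {q c : K} (hq0 : q ≠ 0) (hq : ∀ v ∈ TT, v.abv q < 1) (hc0 : c ≠ 0)
    (hc : c ∈ OT TT) :
    letI := (IntermediateField.inclusion h).toRingHom.toAlgebra
    TN (OT TT) (SpF pl) R R' (q * c) c := by
  let i1 : Algebra R R' := (IntermediateField.inclusion h).toRingHom.toAlgebra
  have i2 : IsScalarTower K R R' := IsScalarTower.of_algebraMap_eq fun _ => rfl
  let e : (IntermediateField.extendScalars h) ≃ₐ[R] R' :=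
    { toFun := fun x => ⟨x.1, x.2⟩
      invFun := fun x => ⟨x.1, x.2⟩
      left_inv := fun _ => rfl
      right_inv := fun _ => rfl
      map_mul' := fun _ _ => rfl
      map_add' := fun _ _ => rfl
      commutes' := fun _ => rfl }
  have i5 : IsGalois R R' := IsGalois.of_algEquiv e
  have hd' : finrank R R' = p := by rw [← hd]; exact e.toLinearEquiv.finrank_eq.symm
  exact tn_ff hTT pl hJ hp (H167.Ni.n1 hp) (H167.Ni.n2 hp) hpK hd' hq0 hq hc0 hc

/-- **Reduced norms near one over the centre**, at any places outside of which the algebra is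
split. -/
theorem nsAt_ff {Z C : Type} [Field Z] [GFF Z] [DivisionRing C] [Algebra Z C]
    [FiniteDimensional Z C] [Algebra.IsCentral Z C] {p e : ℕ} (hp : p.Prime) (hpZ : (p : Z) ≠ 0)
    (hC : finrank Z C = (p ^ e) ^ 2) (T : Finset (Place Z))
    (hT : ∀ v, v ∉ T → Spl C (p ^ e) (algebraMap Z v.comp)) {N : ℕ} (β : Basis (Fin N) Z C) :
    NsAt (p ^ e) β T := by
  classical
  haveI hi : Infinite Z := Hey.gff_infinite Z
  intro ε hε
  have hb : p ^ e ≠ 0 := (deg_pos hC).ne'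
  obtain ⟨Nm, hNm, hNrd⟩ := exists_rnN hC
  obtain ⟨q, hq0, hq⟩ := exists_small_ff T
  -- the sets of places outside `T`
  let J : Type := {B : Finset (Place Z) // ∀ v ∈ B, v ∉ T}
  have hJne : Nonempty J := ⟨⟨∅, fun v hv => absurd hv (Finset.notMem_empty v)⟩⟩
  let pl : J → Set (Place Z) := fun j => (j.1 : Set (Place Z))
  have hJ : ∀ B : Finset (Place Z),
      (∀ V ∈ B, V ∉ (T : Set (Place Z))) → ∃ j, ↑B ⊆ pl j := fun B hB =>
    ⟨⟨B, fun v hv => by simpa using hB v hv⟩, subset_rfl⟩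
  have hspl : ∀ j : J, ∃ t : C, (minpoly Z t).natDegree = p ^ e ∧ (minpoly Z t).Separable ∧
      SpF pl j (minpoly Z t) := by
    intro j
    obtain ⟨t, ht, hts, h1⟩ := H380.Good7.exists_split_maxF hC j.1 (fun v hv => hT v (j.2 v hv))
    exact ⟨t, ht, hts, SpF.of_minpoly hts fun v hv => (h1 v hv).1⟩
  have hatl : ∀ W : Subgroup Zˣ, (∀ j, GoodFor (OTa (avF T) (avF_ult T)) W (SpF pl) j) →
      ∀ l : ℕ, l.Prime → l ∣ p ^ e → ∃ c ∈ OTa (avF T) (avF_ult T), c ≠ 0 ∧ ∃ r : ℕ, ¬ l ∣ r ∧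
        ∀ x : Zˣ, Near (OTa (avF T) (avF_ult T)) Z c (x : Z) → x ^ r ∈ W := by
    intro W hgood l hl hlb
    rw [OTa_avF] at hgood ⊢
    have hlp : l = p := (Nat.prime_dvd_prime_iff_eq hl hp).mp (hl.dvd_of_dvd_pow hlb)
    subst hlp
    refine atlT (Ω := AlgebraicClosure Z) hgood hl ?_
    intro R R' h hR hR' _ _ hG hd c hc hc0
    exact ⟨q * c, mul_mem (fun v hv => (hq ⟨v, hv⟩).le) hc, mul_ne_zero hq0 hc0,
      tn_interF T.finite_toSet pl hJ hl hpZ R R' h hG hd hq0 (fun v hv => hq ⟨v, hv⟩) hc0 hc⟩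
  obtain ⟨δ, hδ, h⟩ := ns_fam (avF_ult T) (fun δ hδ => exists_small T hδ) β hb hNm hatl hspl hε
  refine ⟨δ, hδ, fun x hx hxT => ?_⟩
  obtain ⟨τ, hτ, hc, hN⟩ := h x hx fun v => hxT v.1 v.2
  exact ⟨τ, hN ▸ hNrd τ, fun v hv l => hc ⟨v, hv⟩ l⟩

end Vale.Agent.P011.H677.NSF
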