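import Vale.Agent.P011.H677.NSF.Main
import Vale.Agent.P011.H275.GW8c
import Vale.Agent.P011.H605.Odd.GermGood
import Vale.Agent.P011.H996.Odd.RootT

/-!
**Wang's theorem near one over function fields**, for homomorphisms near one into groups of
exponent a power of a prime different from the characteristic.
-/

open Module Filter Topology

set_option linter.style.haveILetI false
set_option linter.unusedSectionVars false

namespace Vale.Agent.P011.H677.NSF

open Vale.Agent.P011.H738 Vale.Agent.P011.H271
open Vale.Agent.P011.H775.Top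
open Vale.Agent.P011.H677.GW
open Vale.Agent.P011.W (HasNrd)

/-- **Wang's theorem near one over function fields**, exponent prime to the characteristic. -/
theorem rwK_ff {k : Type} [Field k] [GFF k] (T : Finset (Place k)) [Nonempty T] {K D : Type}
    [Field K] [Algebra k K] [FiniteDimensional k K] [Algebra.IsSeparable k K] [DivisionRing D]
    [Algebra K D] [Algebra k D] [IsScalarTower k K D] [FiniteDimensional K D]
    [Algebra.IsCentral K D] {n : ℕ} (hD : finrank K D = n ^ 2) {A : Type} [AddCommGroup A]
    {l e : ℕ} (hl : l.Prime) (hlk : (l : k) ≠ 0) (hA : ∀ x : A, l ^ e • x = 0) {F : D → A}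
    (hF : letI := topk (avF T); Good k F) :
    letI := topk (avF T)
    ∀ᶠ x in nb k D, HasNrd K n x 1 → F x = 0 := by
  letI := topk (avF T)
  haveI := topk_isTopologicalDivisionRing (avF T)
  haveI := topk_t2 (avF T)
  haveI hi : Infinite k := Hey.gff_infinite k
  obtain ⟨t, ht0, ht⟩ := exists_small_ff T
  have hMk : ((l ^ e : ℕ) : k) ≠ 0 := by
    rw [Nat.cast_pow]
    exact pow_ne_zero _ hlk
  have hna : ∀ v : T, IsNonarchimedean (avF T v) := avF_nonarch T
  refine H275.GW8.rw_sep (H612.Germ.conjP_topk (avF T) ht0 ht A)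
    (H612.Germ.conjM_topk (avF T) ht0 ht A) (H605.Odd.baseP k A) (pow_ne_zero e hl.ne_zero) hA hMk
    (fun p hp hpl => ?_) (H996.Odd.rootP_tad (avF T) (H612.Germ.tad_topk (avF T) hna) hMk) hD hF
  have hpl' : p = l := (Nat.prime_dvd_prime_iff_eq hp hl).mp (hp.dvd_of_dvd_pow hpl)
  subst hpl'
  exact nSurP_ff T hp hlk

end Vale.Agent.P011.H677.NSF
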